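import Crest.Agent.Lib.Thorp.Interface
import Crest.Agent.Lib.Thorp.Finner
import Crest.Agent.Lib.Thorp.Model

/-!
# Thorp shuffle (S0222): the low-end recursion of a sweep, bit reversal, block factorisation.

* `snoc k x β : Pos (k+1)` appends the low bit `β`.
* `sweep_snoc`: `sweep (k+1) T (x snoc β) = y snoc (β xor lowF T y)`, `y = sweep k (lowSub T β) x`,
  and `T ↦ (lowF T, lowSub T false, lowSub T true)` is a bijection (`lowEquiv`).
* `sweep_revConj`: `sweep T ∘ rev ∘ sweep (revCoins T) = rev`, i.e.
  `(sweep T)⁻¹ = rev ∘ sweep (revCoins T) ∘ rev`, with `revCoins` bijective.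
* `yminus`: the `T T*` collisions of the top layers; `yminus_full`, `yminus_trunc`.
-/

set_option autoImplicit false

namespace Crest.Agent.Thorp

open Finset BigOperators

/-! ### Appending a low bit -/

/-- Append a low bit. -/
def snoc : ∀ k, Pos k → Bool → Pos (k + 1)
  | 0, _, β => ((β, ()) : Bool × Unit)
  | k + 1, x, β =>
      let x' : Bool × Pos k := x
      ((x'.1, snoc k x'.2 β) : Bool × Pos (k + 1))

/-- Remove the low bit. -/
def unsnoc : ∀ k, Pos (k + 1) → Pos k × Bool
  | 0, x => ((), (x : Bool × Unit).1)
  | k + 1, x =>
      let x' : Bool × Pos (k + 1) := x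
      let r := unsnoc k x'.2
      (((x'.1, r.1) : Bool × Pos k), r.2)

theorem unsnoc_snoc : ∀ k (x : Pos k) (β : Bool), unsnoc k (snoc k x β) = (x, β)
  | 0, _, _ => rfl
  | k + 1, x, β => by
      obtain ⟨b, p⟩ : Bool × Pos k := x
      have ih := unsnoc_snoc k p β
      change (((b, (unsnoc k (snoc k p β)).1) : Bool × Pos k), (unsnoc k (snoc k p β)).2) =
        (((b, p) : Bool × Pos k), β)
      rw [ih]

theorem snoc_unsnoc : ∀ k (z : Pos (k + 1)), snoc k (unsnoc k z).1 (unsnoc k z).2 = z
  | 0, _ => rfl
  | k + 1, z => by
      obtain ⟨b, w⟩ : Bool × Pos (k + 1) := z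
      have ih := snoc_unsnoc k w
      change ((b, snoc k (unsnoc k w).1 (unsnoc k w).2) : Bool × Pos (k + 1)) = (b, w)
      rw [ih]

/-- `Pos (k+1)` as `Pos k × Bool`. -/
def snocEquiv (k : ℕ) : Pos k × Bool ≃ Pos (k + 1) where
  toFun p := snoc k p.1 p.2
  invFun := unsnoc k
  left_inv p := by obtain ⟨x, β⟩ := p; exact unsnoc_snoc k x β
  right_inv z := snoc_unsnoc k z

theorem snoc_surj {k : ℕ} (z : Pos (k + 1)) : ∃ x β, snoc k x β = z :=
  ⟨(unsnoc k z).1, (unsnoc k z).2, snoc_unsnoc k z⟩

theorem snoc_inj {k : ℕ} {x x' : Pos k} {β β' : Bool} (h : snoc k x β = snoc k x' β') :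
    x = x' ∧ β = β' := by
  have := congrArg (unsnoc k) h
  rw [unsnoc_snoc, unsnoc_snoc] at this
  exact ⟨congrArg Prod.fst this, congrArg Prod.snd this⟩

/-! ### Bit reversal -/

/-- Bit reversal. -/
def rev : ∀ k, Pos k → Pos k
  | 0, x => x
  | k + 1, x =>
      let x' : Bool × Pos k := x
      snoc k (rev k x'.2) x'.1

theorem rev_succ (k : ℕ) (b : Bool) (p : Pos k) :
    rev (k + 1) ((b, p) : Bool × Pos k) = snoc k (rev k p) b := rfl

theorem rev_snoc : ∀ k (x : Pos k) (β : Bool),
    rev (k + 1) (snoc k x β) = ((β, rev k x) : Bool × Pos k)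
  | 0, _, _ => rfl
  | k + 1, x, β => by
      obtain ⟨b, p⟩ : Bool × Pos k := x
      have ih := rev_snoc k p β
      change snoc (k + 1) (rev (k + 1) (snoc k p β)) b = ((β, snoc k (rev k p) b) : Bool × Pos (k + 1))
      rw [ih]
      rfl

theorem rev_rev : ∀ k (x : Pos k), rev k (rev k x) = x
  | 0, _ => rfl
  | k + 1, x => by
      obtain ⟨b, p⟩ : Bool × Pos k := x
      change rev (k + 1) (snoc k (rev k p) b) = ((b, p) : Bool × Pos k)
      rw [rev_snoc, rev_rev k p]

/-- Bit reversal as a permutation. -/
def revEquiv (k : ℕ) : Equiv.Perm (Pos k) where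
  toFun := rev k
  invFun := rev k
  left_inv := rev_rev k
  right_inv := rev_rev k

/-! ### The low-end decomposition of the coins -/

/-- The coins of the bottom layer. -/
def lowF : ∀ k, Coins (k + 1) → Pos k → Bool
  | 0, T, _ => T (Sum.inl ())
  | k + 1, T, y =>
      let y' : Bool × Pos k := y
      lowF k (Coins.sub T y'.1) y'.2

/-- The sweep on the fibre of the low bit `β`. -/
def lowSub : ∀ k, Coins (k + 1) → Bool → Coins k
  | 0, _, _ => fun i => nomatch (i : Empty)
  | k + 1, T, β =>
      Coins.mk (fun p => Coins.top T (snoc k p β))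
        (lowSub k (Coins.sub T false) β) (lowSub k (Coins.sub T true) β)

/-- Inverse of the low-end decomposition. -/
def lowMk : ∀ k, (Pos k → Bool) → Coins k → Coins k → Coins (k + 1)
  | 0, f, T0, T1 => Coins.mk f T0 T1
  | k + 1, f, T0, T1 =>
      Coins.mk
        (fun z => let r := unsnoc k z; Coins.top (if r.2 then T1 else T0) r.1)
        (lowMk k (fun y => f ((false, y) : Bool × Pos k)) (Coins.sub T0 false) (Coins.sub T1 false))
        (lowMk k (fun y => f ((true, y) : Bool × Pos k)) (Coins.sub T0 true) (Coins.sub T1 true))

theorem Coins_mk_eta {k : ℕ} (T : Coins (k + 1)) :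
    Coins.mk (Coins.top T) (Coins.sub T false) (Coins.sub T true) = T := by
  funext i
  change (match (i : Pos k ⊕ (Bool × Idx k)) with
    | Sum.inl p => Coins.top T p
    | Sum.inr (false, j) => Coins.sub T false j
    | Sum.inr (true, j) => Coins.sub T true j) = T i
  rcases (i : Pos k ⊕ (Bool × Idx k)) with p | ⟨b, j⟩
  · rfl
  · cases b <;> rfl

theorem Coins0_ext (T T' : Coins 0) : T = T' := funext fun i => nomatch (i : Empty)

theorem lowF_lowMk : ∀ k (f : Pos k → Bool) (T0 T1 : Coins k), lowF k (lowMk k f T0 T1) = f
  | 0, _, _, _ => rfl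
  | k + 1, f, T0, T1 => by
      funext y
      obtain ⟨a, y'⟩ : Bool × Pos k := y
      cases a
      · change lowF k (lowMk k (fun y => f ((false, y) : Bool × Pos k))
          (Coins.sub T0 false) (Coins.sub T1 false)) y' = _
        rw [lowF_lowMk]
      · change lowF k (lowMk k (fun y => f ((true, y) : Bool × Pos k))
          (Coins.sub T0 true) (Coins.sub T1 true)) y' = _
        rw [lowF_lowMk]

theorem lowSub_lowMk_false : ∀ k (f : Pos k → Bool) (T0 T1 : Coins k),
    lowSub k (lowMk k f T0 T1) false = T0
  | 0, _, T0, _ => Coins0_ext _ _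
  | k + 1, f, T0, T1 => by
      change Coins.mk (fun p => Coins.top (lowMk (k + 1) f T0 T1) (snoc k p false))
        (lowSub k (lowMk k (fun y => f ((false, y) : Bool × Pos k))
          (Coins.sub T0 false) (Coins.sub T1 false)) false)
        (lowSub k (lowMk k (fun y => f ((true, y) : Bool × Pos k))
          (Coins.sub T0 true) (Coins.sub T1 true)) false) = T0
      rw [lowSub_lowMk_false, lowSub_lowMk_false]
      have : (fun p => Coins.top (lowMk (k + 1) f T0 T1) (snoc k p false)) = Coins.top T0 := by
        funext p
        change (let r := unsnoc k (snoc k p false); Coins.top (if r.2 then T1 else T0) r.1) = _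
        simp [unsnoc_snoc]
      rw [this]
      exact Coins_mk_eta T0

theorem lowSub_lowMk_true : ∀ k (f : Pos k → Bool) (T0 T1 : Coins k),
    lowSub k (lowMk k f T0 T1) true = T1
  | 0, _, _, T1 => Coins0_ext _ _
  | k + 1, f, T0, T1 => by
      change Coins.mk (fun p => Coins.top (lowMk (k + 1) f T0 T1) (snoc k p true))
        (lowSub k (lowMk k (fun y => f ((false, y) : Bool × Pos k))
          (Coins.sub T0 false) (Coins.sub T1 false)) true)
        (lowSub k (lowMk k (fun y => f ((true, y) : Bool × Pos k))
          (Coins.sub T0 true) (Coins.sub T1 true)) true) = T1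
      rw [lowSub_lowMk_true, lowSub_lowMk_true]
      have : (fun p => Coins.top (lowMk (k + 1) f T0 T1) (snoc k p true)) = Coins.top T1 := by
        funext p
        change (let r := unsnoc k (snoc k p true); Coins.top (if r.2 then T1 else T0) r.1) = _
        simp [unsnoc_snoc]
      rw [this]
      exact Coins_mk_eta T1

theorem lowMk_low : ∀ k (T : Coins (k + 1)),
    lowMk k (lowF k T) (lowSub k T false) (lowSub k T true) = T
  | 0, T => by
      change Coins.mk (lowF 0 T) _ _ = T
      rw [← Coins_mk_eta T]
      have h1 : ∀ b, (Coins.sub (Coins.mk (Coins.top T) (Coins.sub T false) (Coins.sub T true)) b) =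
        Coins.sub T b := by intro b; cases b <;> rfl
      congr 1 <;> exact Coins0_ext _ _
  | k + 1, T => by
      change Coins.mk
        (fun z => let r := unsnoc k z;
          Coins.top (if r.2 then lowSub (k + 1) T true else lowSub (k + 1) T false) r.1)
        (lowMk k (fun y => lowF k (Coins.sub T false) y)
          (Coins.sub (lowSub (k + 1) T false) false) (Coins.sub (lowSub (k + 1) T true) false))
        (lowMk k (fun y => lowF k (Coins.sub T true) y)
          (Coins.sub (lowSub (k + 1) T false) true) (Coins.sub (lowSub (k + 1) T true) true)) = T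
      have h0 := lowMk_low k (Coins.sub T false)
      have h1 := lowMk_low k (Coins.sub T true)
      have e1 : (Coins.sub (lowSub (k + 1) T false) false) = lowSub k (Coins.sub T false) false := rfl
      have e2 : (Coins.sub (lowSub (k + 1) T true) false) = lowSub k (Coins.sub T false) true := rfl
      have e3 : (Coins.sub (lowSub (k + 1) T false) true) = lowSub k (Coins.sub T true) false := rfl
      have e4 : (Coins.sub (lowSub (k + 1) T true) true) = lowSub k (Coins.sub T true) true := rfl
      rw [e1, e2, e3, e4]
      have h0' : lowMk k (fun y => lowF k (Coins.sub T false) y) (lowSub k (Coins.sub T false) false)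
          (lowSub k (Coins.sub T false) true) = Coins.sub T false := h0
      have h1' : lowMk k (fun y => lowF k (Coins.sub T true) y) (lowSub k (Coins.sub T true) false)
          (lowSub k (Coins.sub T true) true) = Coins.sub T true := h1
      rw [h0', h1']
      have : (fun z => let r := unsnoc k z;
          Coins.top (if r.2 then lowSub (k + 1) T true else lowSub (k + 1) T false) r.1)
          = Coins.top T := by
        funext z
        obtain ⟨x, β, rfl⟩ := snoc_surj z
        rw [unsnoc_snoc]
        cases β <;> rfl
      rw [this]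
      exact Coins_mk_eta T

/-- The low-end bijection on coins. -/
def lowEquiv (k : ℕ) : Coins (k + 1) ≃ (Pos k → Bool) × Coins k × Coins k where
  toFun T := (lowF k T, lowSub k T false, lowSub k T true)
  invFun p := lowMk k p.1 p.2.1 p.2.2
  left_inv T := lowMk_low k T
  right_inv p := by
    obtain ⟨f, T0, T1⟩ := p
    simp only [lowF_lowMk, lowSub_lowMk_false, lowSub_lowMk_true]

/-- The low-end recursion of the sweep. -/
theorem sweep_snoc : ∀ k (T : Coins (k + 1)) (x : Pos k) (β : Bool),
    sweep (k + 1) T (snoc k x β) =
      snoc k (sweep k (lowSub k T β) x) (xor β (lowF k T (sweep k (lowSub k T β) x)))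
  | 0, _, _, _ => rfl
  | k + 1, T, x, β => by
      obtain ⟨b, p⟩ : Bool × Pos k := x
      set a := xor b (Coins.top T (snoc k p β)) with ha
      have ih := sweep_snoc k (Coins.sub T a) p β
      have h1 : sweep (k + 2) T (snoc (k + 1) ((b, p) : Bool × Pos k) β) =
          ((a, sweep (k + 1) (Coins.sub T a) (snoc k p β)) : Bool × Pos (k + 1)) := rfl
      have h2 : sweep (k + 1) (lowSub (k + 1) T β) ((b, p) : Bool × Pos k) =
          ((a, sweep k (lowSub k (Coins.sub T a) β) p) : Bool × Pos k) := by
        rw [sweep_succ]
        have h3 : Coins.top (lowSub (k + 1) T β) p = Coins.top T (snoc k p β) := rfl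
        rw [h3, ← ha]
        have h4 : Coins.sub (lowSub (k + 1) T β) a = lowSub k (Coins.sub T a) β := by
          cases a <;> rfl
        rw [h4]
      rw [h1, h2, ih]
      rfl

/-! ### Reversal of coins -/

/-- The coins of `rev ∘ (sweep T)⁻¹ ∘ rev`. -/
def revCoins : ∀ k, Coins k → Coins k
  | 0, T => T
  | k + 1, T =>
      Coins.mk (fun w => lowF k T (rev k w))
        (revCoins k (lowSub k T false)) (revCoins k (lowSub k T true))

theorem revCoins_injective : ∀ k, Function.Injective (revCoins k)
  | 0 => fun _ _ h => h
  | k + 1 => by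
      intro T T' h
      have h1 : Coins.top (revCoins (k + 1) T) = Coins.top (revCoins (k + 1) T') := by rw [h]
      have h2 : ∀ b, Coins.sub (revCoins (k + 1) T) b = Coins.sub (revCoins (k + 1) T') b := by
        intro b; rw [h]
      have hF : lowF k T = lowF k T' := by
        funext y
        have := congrFun h1 (rev k y)
        change lowF k T (rev k (rev k y)) = lowF k T' (rev k (rev k y)) at this
        rwa [rev_rev] at this
      have hS : ∀ b, lowSub k T b = lowSub k T' b := by
        intro b
        apply revCoins_injective k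
        have := h2 b
        cases b <;> exact this
      rw [← lowMk_low k T, ← lowMk_low k T', hF, hS, hS]

theorem revCoins_bijective (k : ℕ) : Function.Bijective (revCoins k) :=
  Finite.injective_iff_bijective.1 (revCoins_injective k)

/-- `sweep T ∘ rev ∘ sweep (revCoins T) = rev`. -/
theorem sweep_revConj : ∀ k (T : Coins k) (z : Pos k),
    sweep k T (rev k (sweep k (revCoins k T) z)) = rev k z
  | 0, _, _ => rfl
  | k + 1, T, z => by
      obtain ⟨γ, w⟩ : Bool × Pos k := z
      set a := xor γ (lowF k T (rev k w)) with ha
      have h1 : sweep (k + 1) (revCoins (k + 1) T) ((γ, w) : Bool × Pos k) =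
          ((a, sweep k (revCoins k (lowSub k T a)) w) : Bool × Pos k) := by
        rw [sweep_succ]
        have h3 : Coins.top (revCoins (k + 1) T) w = lowF k T (rev k w) := rfl
        rw [h3, ← ha]
        have h4 : Coins.sub (revCoins (k + 1) T) a = revCoins k (lowSub k T a) := by
          cases a <;> rfl
        rw [h4]
      rw [h1]
      set w' := sweep k (revCoins k (lowSub k T a)) w with hw'
      change sweep (k + 1) T (snoc k (rev k w') a) = snoc k (rev k w) γ
      rw [sweep_snoc, sweep_revConj k (lowSub k T a) w]
      congr 1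
      rw [ha]
      cases γ <;> cases lowF k T (rev k w) <;> rfl

/-- `(sweep T)⁻¹ = rev ∘ sweep (revCoins T) ∘ rev`. -/
theorem sweep_inv_apply (k : ℕ) (T : Coins k) (z : Pos k) :
    (sweep k T)⁻¹ z = rev k (sweep k (revCoins k T) (rev k z)) := by
  rw [Equiv.Perm.inv_eq_iff_eq]
  have := sweep_revConj k T (rev k z)
  rw [rev_rev] at this
  exact this.symm

/-! ### `T T*` collisions of the top layers -/

/-- Keep the coins of level `> m`, set the others to `false`. -/
def nearPart {k : ℕ} (m : ℕ) (T : Coins k) : Coins k := fun i => if m < lev k i then T i else false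

theorem lev_pos : ∀ k (i : Idx k), 0 < lev k i
  | 0, i => nomatch (i : Empty)
  | k + 1, i => by
      rcases (i : Pos k ⊕ (Bool × Idx k)) with p | ⟨b, j⟩
      · exact Nat.succ_pos k
      · exact lev_pos k j

theorem nearPart_zero {k : ℕ} (T : Coins k) : nearPart 0 T = T := by
  funext i
  unfold nearPart
  rw [if_pos (lev_pos k i)]

theorem lowF_nearPart_succ : ∀ k (m : ℕ) (T : Coins (k + 1)) (y : Pos k),
    lowF k (nearPart (m + 1) T) y = false
  | 0, m, T, y => by
      change (if m + 1 < lev 1 (Sum.inl () : Pos 0 ⊕ (Bool × Idx 0)) then T (Sum.inl ()) else false) = false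
      rw [if_neg]
      change ¬ (m + 1 < 1)
      omega
  | k + 1, m, T, y => by
      obtain ⟨a, y'⟩ : Bool × Pos k := y
      have h : Coins.sub (nearPart (m + 1) T) a = nearPart (m + 1) (Coins.sub T a) := rfl
      change lowF k (Coins.sub (nearPart (m + 1) T) a) y' = false
      rw [h]
      exact lowF_nearPart_succ k m (Coins.sub T a) y'

theorem lowSub_top {k : ℕ} (T : Coins (k + 2)) (β : Bool) (p : Pos k) :
    Coins.top (lowSub (k + 1) T β) p = Coins.top T (snoc k p β) := rfl

/-- Levels of `lowSub`: a coin of level `h` of the fibre sweep has level `h + 1` in the sweep. -/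
theorem lowSub_nearPart_succ : ∀ k (m : ℕ) (T : Coins (k + 1)) (β : Bool),
    lowSub k (nearPart (m + 1) T) β = nearPart m (lowSub k T β)
  | 0, _, _, _ => Coins0_ext _ _
  | k + 1, m, T, β => by
      funext i
      rcases hi : (i : Pos k ⊕ (Bool × Idx k)) with p | ⟨b, j⟩
      · have h1 : i = (Sum.inl p : Pos k ⊕ (Bool × Idx k)) := hi
        subst h1
        change (if m + 1 < lev (k + 2) (Sum.inl (snoc k p β) : Pos (k + 1) ⊕ (Bool × Idx (k + 1)))
            then T (Sum.inl (snoc k p β)) else false) =
          (if m < lev (k + 1) (Sum.inl p : Pos k ⊕ (Bool × Idx k))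
            then T (Sum.inl (snoc k p β)) else false)
        have e1 : lev (k + 2) (Sum.inl (snoc k p β) : Pos (k + 1) ⊕ (Bool × Idx (k + 1))) = k + 2 := rfl
        have e2 : lev (k + 1) (Sum.inl p : Pos k ⊕ (Bool × Idx k)) = k + 1 := rfl
        rw [e1, e2]
        by_cases hm : m < k + 1
        · rw [if_pos (by omega), if_pos hm]
        · rw [if_neg (by omega), if_neg hm]
      · have h1 : i = (Sum.inr (b, j) : Pos k ⊕ (Bool × Idx k)) := hi
        subst h1
        have ih := lowSub_nearPart_succ k m (Coins.sub T b) β
        have h2 : Coins.sub (nearPart (m + 1) T) b = nearPart (m + 1) (Coins.sub T b) := rfl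
        have h3 : lowSub (k + 1) (nearPart (m + 1) T) β (Sum.inr (b, j)) =
            lowSub k (Coins.sub (nearPart (m + 1) T) b) β j := by
          cases b <;> rfl
        have h4 : nearPart m (lowSub (k + 1) T β) (Sum.inr (b, j)) =
            nearPart m (lowSub k (Coins.sub T b) β) j := by
          cases b <;> rfl
        rw [h3, h4, h2, ih]

/-- The near sweep on the low-bit fibres. -/
theorem sweep_nearPart_snoc (k m : ℕ) (T : Coins (k + 1)) (x : Pos k) (β : Bool) :
    sweep (k + 1) (nearPart (m + 1) T) (snoc k x β) =
      snoc k (sweep k (nearPart m (lowSub k T β)) x) β := by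
  rw [sweep_snoc, lowSub_nearPart_succ, lowF_nearPart_succ]
  simp

/-- The `T T*` collision trace over colourings supported on `S` for the near sweep. -/
noncomputable def yminus (U : Type) [Fintype U] [DecidableEq U] (k m : ℕ) (S : Finset (Pos k)) : ℝ :=
  ∑ a : Color U k, if csupp a ⊆ S then
    avg fun T : Coins k => avg fun T' : Coins k =>
      if (fun x => a (sweep k (nearPart m T) x)) = (fun x => a (sweep k (nearPart m T') x))
      then (1 : ℝ) else 0
  else 0

namespace RevAux

theorem avg_comp_bij {α : Type*} [Fintype α] {e : α → α} (he : Function.Bijective e) (f : α → ℝ) :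
    avg (fun a => f (e a)) = avg f := by
  unfold avg
  congr 1
  exact Function.Bijective.sum_comp he f

/-- Averages over the coins of a function of the fibre coins factorise. -/
theorem avg_low {k : ℕ} (u v : Coins k → ℝ) :
    avg (fun T : Coins (k + 1) => u (lowSub k T false) * v (lowSub k T true)) = avg u * avg v := by
  classical
  unfold avg
  have h1 : ∑ T : Coins (k + 1), u (lowSub k T false) * v (lowSub k T true) =
      ∑ p : (Pos k → Bool) × Coins k × Coins k, u p.2.1 * v p.2.2 :=
    Equiv.sum_comp (lowEquiv k) (fun p => u p.2.1 * v p.2.2)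
  have h2 : ∑ p : (Pos k → Bool) × Coins k × Coins k, u p.2.1 * v p.2.2 =
      (Fintype.card (Pos k → Bool) : ℝ) * ((∑ T, u T) * ∑ T, v T) := by
    rw [Fintype.sum_prod_type]
    simp only [Fintype.sum_prod_type, Finset.sum_const, Finset.card_univ, nsmul_eq_mul]
    rw [Finset.sum_mul_sum]
  have h3 : (Fintype.card (Coins (k + 1)) : ℝ) =
      (Fintype.card (Pos k → Bool) : ℝ) * ((Fintype.card (Coins k) : ℝ) * (Fintype.card (Coins k) : ℝ)) := by
    rw [Fintype.card_congr (lowEquiv k)]
    simp only [Fintype.card_prod, Nat.cast_mul]
  rw [h1, h2, h3]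
  have hF : (Fintype.card (Pos k → Bool) : ℝ) ≠ 0 := by
    have : 0 < Fintype.card (Pos k → Bool) := Fintype.card_pos
    exact_mod_cast this.ne'
  have hC : (Fintype.card (Coins k) : ℝ) ≠ 0 := by
    have : 0 < Fintype.card (Coins k) := Fintype.card_pos
    exact_mod_cast this.ne'
  field_simp

/-- The collision `coll k c c` in `T T*` form. -/
theorem coll_self_eq {U : Type} [DecidableEq U] (k : ℕ) (c : Color U k) :
    coll k c c = avg fun T : Coins k => avg fun T' : Coins k =>
      if (fun x => c (rev k (sweep k T x))) = (fun x => c (rev k (sweep k T' x)))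
      then (1 : ℝ) else 0 := by
  have key : ∀ T T' : Coins k, ((fun x => c ((gOf T T')⁻¹ x)) = c) ↔
      ((fun x => c (rev k (sweep k (revCoins k T) x))) =
        (fun x => c (rev k (sweep k (revCoins k T') x)))) := by
    intro T T'
    have hinv : ∀ x, (gOf T T')⁻¹ x = (sweep k T)⁻¹ (sweep k T' x) := by
      intro x
      unfold gOf
      simp [mul_inv_rev]
    have hi : ∀ (R : Coins k) (w : Pos k), rev k (sweep k (revCoins k R) w) = (sweep k R)⁻¹ (rev k w) := by
      intro R w
      rw [sweep_inv_apply, rev_rev]
    constructor
    · intro h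
      funext w
      rw [hi, hi]
      have := congrFun h ((sweep k T')⁻¹ (rev k w))
      simp only [hinv] at this
      simpa using this
    · intro h
      funext x
      rw [hinv]
      have := congrFun h (rev k (sweep k T' x))
      simp only [hi, rev_rev] at this
      rw [this]
      simp
  unfold coll
  simp_rw [key]
  have e := avg_comp_bij (revCoins_bijective k) (fun T : Coins k => avg fun T' : Coins k =>
      if (fun x => c (rev k (sweep k T x))) = (fun x => c (rev k (sweep k T' x)))
      then (1 : ℝ) else 0)
  rw [← e]
  congr 1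
  funext T
  exact avg_comp_bij (revCoins_bijective k) (fun T' : Coins k =>
      if (fun x => c (rev k (sweep k (revCoins k T) x))) = (fun x => c (rev k (sweep k T' x)))
      then (1 : ℝ) else 0)

end RevAux

open RevAux in
/-- `yminus` at `m = 0` is `yk` at the reversed set. -/
theorem yminus_zero (U : Type) [Fintype U] [DecidableEq U] (k : ℕ) (S : Finset (Pos k)) :
    yminus U k 0 S = yk U k (S.image (rev k)) 1 := by
  classical
  unfold yminus yk
  let e : Color U k ≃ Color U k :=
    { toFun := fun a x => a (rev k x)
      invFun := fun a x => a (rev k x)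
      left_inv := fun a => by funext x; simp [rev_rev]
      right_inv := fun a => by funext x; simp [rev_rev] }
  rw [← Equiv.sum_comp e (fun c => if csupp c ⊆ S.image (rev k) then
    (1 : ℝ) ^ (csupp c).card * coll k c c else 0)]
  refine Finset.sum_congr rfl fun a _ => ?_
  have hsupp : csupp (e a) ⊆ S.image (rev k) ↔ csupp a ⊆ S := by
    constructor
    · intro h x hx
      have hx' : rev k x ∈ csupp (e a) := by
        simp only [csupp, Finset.mem_filter, Finset.mem_univ, true_and] at hx ⊢
        change (a (rev k (rev k x))).isSome = true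
        rwa [rev_rev]
      obtain ⟨y, hy, hyx⟩ := Finset.mem_image.1 (h hx')
      have : y = x := by
        have := congrArg (rev k) hyx
        rwa [rev_rev, rev_rev] at this
      rwa [← this]
    · intro h x hx
      have hx' : rev k x ∈ csupp a := by
        simp only [csupp, Finset.mem_filter, Finset.mem_univ, true_and] at hx ⊢
        exact hx
      exact Finset.mem_image.2 ⟨rev k x, h hx', rev_rev k x⟩
  by_cases hS : csupp a ⊆ S
  · rw [if_pos hS, if_pos (hsupp.2 hS), one_pow, one_mul, coll_self_eq]
    simp only [nearPart_zero]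
    have : ∀ x, e a (rev k x) = a x := by
      intro x
      change a (rev k (rev k x)) = a x
      rw [rev_rev]
    simp only [this]
  · rw [if_neg hS, if_neg (fun h => hS (hsupp.1 h))]

theorem card_image_rev {k : ℕ} (S : Finset (Pos k)) : (S.image (rev k)).card = S.card :=
  Finset.card_image_of_injective S (revEquiv k).injective

/-- The near trace for the full sweep, two colours. -/
theorem yminus_full (hV : Interface.VFull) (k : ℕ) (S : Finset (Pos k)) :
    yminus Unit k 0 S ≤ (Utab k 1) ^ ((S.card : ℝ) / (2 : ℝ) ^ k) := by
  rw [yminus_zero]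
  have := hV k (S.image (rev k))
  rwa [card_image_rev] at this

/-- Fibre of a set over the low bit. -/
def lowFibre {k : ℕ} (S : Finset (Pos (k + 1))) (β : Bool) : Finset (Pos k) :=
  Finset.univ.filter fun x => snoc k x β ∈ S

theorem card_lowFibre {k : ℕ} (S : Finset (Pos (k + 1))) :
    (lowFibre S false).card + (lowFibre S true).card = S.card := by
  classical
  have h : S.card = (S.filter fun z => (unsnoc k z).2 = false).card +
      (S.filter fun z => ¬ (unsnoc k z).2 = false).card :=
    (Finset.card_filter_add_card_filter_not _).symm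
  rw [h]
  congr 1
  · refine Finset.card_bij (fun x _ => snoc k x false) ?_ ?_ ?_
    · intro x hx
      simp only [lowFibre, Finset.mem_filter, Finset.mem_univ, true_and] at hx
      simp [hx, unsnoc_snoc]
    · intro x _ y _ h
      exact (snoc_inj h).1
    · intro z hz
      simp only [Finset.mem_filter] at hz
      refine ⟨(unsnoc k z).1, ?_, ?_⟩
      · simp only [lowFibre, Finset.mem_filter, Finset.mem_univ, true_and]
        rw [← hz.2, snoc_unsnoc]
        exact hz.1
      · rw [← hz.2, snoc_unsnoc]
  · refine Finset.card_bij (fun x _ => snoc k x true) ?_ ?_ ?_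
    · intro x hx
      simp only [lowFibre, Finset.mem_filter, Finset.mem_univ, true_and] at hx
      simp [hx, unsnoc_snoc]
    · intro x _ y _ h
      exact (snoc_inj h).1
    · intro z hz
      simp only [Finset.mem_filter, Bool.not_eq_false] at hz
      refine ⟨(unsnoc k z).1, ?_, ?_⟩
      · simp only [lowFibre, Finset.mem_filter, Finset.mem_univ, true_and]
        rw [← hz.2, snoc_unsnoc]
        exact hz.1
      · rw [← hz.2, snoc_unsnoc]

/-- Colourings of the two fibres. -/
def colorSplit (U : Type) (k : ℕ) : Color U (k + 1) ≃ Color U k × Color U k where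
  toFun a := (fun x => a (snoc k x false), fun x => a (snoc k x true))
  invFun p := fun z => if (unsnoc k z).2 then p.2 (unsnoc k z).1 else p.1 (unsnoc k z).1
  left_inv a := by
    funext z
    obtain ⟨x, β, rfl⟩ := snoc_surj z
    cases β <;> simp [unsnoc_snoc]
  right_inv p := by
    obtain ⟨a0, a1⟩ := p
    ext x <;> simp [unsnoc_snoc]

open RevAux in
/-- Block factorisation over the low bit. -/
theorem yminus_succ (U : Type) [Fintype U] [DecidableEq U] (k m : ℕ) (S : Finset (Pos (k + 1))) :
    yminus U (k + 1) (m + 1) S = yminus U k m (lowFibre S false) * yminus U k m (lowFibre S true) := by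
  classical
  unfold yminus
  rw [← Equiv.sum_comp (colorSplit U k).symm, Fintype.sum_prod_type, Finset.sum_mul_sum]
  refine Finset.sum_congr rfl fun a0 _ => Finset.sum_congr rfl fun a1 _ => ?_
  set a : Color U (k + 1) := (colorSplit U k).symm (a0, a1) with ha
  have ha0 : ∀ x, a (snoc k x false) = a0 x := by
    intro x
    simp [ha, colorSplit, unsnoc_snoc]
  have ha1 : ∀ x, a (snoc k x true) = a1 x := by
    intro x
    simp [ha, colorSplit, unsnoc_snoc]
  have hsupp : csupp a ⊆ S ↔ csupp a0 ⊆ lowFibre S false ∧ csupp a1 ⊆ lowFibre S true := by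
    constructor
    · intro h
      constructor
      · intro x hx
        have : snoc k x false ∈ csupp a := by
          simp only [csupp, Finset.mem_filter, Finset.mem_univ, true_and] at hx ⊢
          rwa [ha0]
        simpa [lowFibre] using h this
      · intro x hx
        have : snoc k x true ∈ csupp a := by
          simp only [csupp, Finset.mem_filter, Finset.mem_univ, true_and] at hx ⊢
          rwa [ha1]
        simpa [lowFibre] using h this
    · rintro ⟨h0, h1⟩ z hz
      obtain ⟨x, β, rfl⟩ := snoc_surj z
      cases β
      · have : x ∈ csupp a0 := by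
          simp only [csupp, Finset.mem_filter, Finset.mem_univ, true_and] at hz ⊢
          rwa [ha0] at hz
        simpa [lowFibre] using h0 this
      · have : x ∈ csupp a1 := by
          simp only [csupp, Finset.mem_filter, Finset.mem_univ, true_and] at hz ⊢
          rwa [ha1] at hz
        simpa [lowFibre] using h1 this
  have hpt : ∀ T T' : Coins (k + 1),
      (if (fun x => a (sweep (k + 1) (nearPart (m + 1) T) x)) =
          (fun x => a (sweep (k + 1) (nearPart (m + 1) T') x)) then (1 : ℝ) else 0) =
      (if (fun x => a0 (sweep k (nearPart m (lowSub k T false)) x)) =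
          (fun x => a0 (sweep k (nearPart m (lowSub k T' false)) x)) then (1 : ℝ) else 0) *
      (if (fun x => a1 (sweep k (nearPart m (lowSub k T true)) x)) =
          (fun x => a1 (sweep k (nearPart m (lowSub k T' true)) x)) then (1 : ℝ) else 0) := by
    intro T T'
    have hiff : ((fun x => a (sweep (k + 1) (nearPart (m + 1) T) x)) =
          (fun x => a (sweep (k + 1) (nearPart (m + 1) T') x))) ↔
        (((fun x => a0 (sweep k (nearPart m (lowSub k T false)) x)) =
          (fun x => a0 (sweep k (nearPart m (lowSub k T' false)) x))) ∧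
         ((fun x => a1 (sweep k (nearPart m (lowSub k T true)) x)) =
          (fun x => a1 (sweep k (nearPart m (lowSub k T' true)) x)))) := by
      constructor
      · intro h
        constructor
        · funext x
          have := congrFun h (snoc k x false)
          simp only [sweep_nearPart_snoc, ha0] at this
          exact this
        · funext x
          have := congrFun h (snoc k x true)
          simp only [sweep_nearPart_snoc, ha1] at this
          exact this
      · rintro ⟨h0, h1⟩
        funext z
        obtain ⟨x, β, rfl⟩ := snoc_surj z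
        simp only [sweep_nearPart_snoc]
        cases β
        · simp only [ha0]
          exact congrFun h0 x
        · simp only [ha1]
          exact congrFun h1 x
    by_cases h0 : ((fun x => a0 (sweep k (nearPart m (lowSub k T false)) x)) =
          (fun x => a0 (sweep k (nearPart m (lowSub k T' false)) x)))
    · by_cases h1 : ((fun x => a1 (sweep k (nearPart m (lowSub k T true)) x)) =
          (fun x => a1 (sweep k (nearPart m (lowSub k T' true)) x)))
      · rw [if_pos (hiff.2 ⟨h0, h1⟩), if_pos h0, if_pos h1, one_mul]
      · rw [if_neg (fun h => h1 (hiff.1 h).2), if_neg h1, mul_zero]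
    · rw [if_neg (fun h => h0 (hiff.1 h).1), if_neg h0, zero_mul]
  by_cases h0 : csupp a0 ⊆ lowFibre S false
  · by_cases h1 : csupp a1 ⊆ lowFibre S true
    · rw [if_pos (hsupp.2 ⟨h0, h1⟩), if_pos h0, if_pos h1]
      simp_rw [hpt]
      have h2 : ∀ T : Coins (k + 1), (avg fun T' : Coins (k + 1) =>
          (if (fun x => a0 (sweep k (nearPart m (lowSub k T false)) x)) =
              (fun x => a0 (sweep k (nearPart m (lowSub k T' false)) x)) then (1 : ℝ) else 0) *
          (if (fun x => a1 (sweep k (nearPart m (lowSub k T true)) x)) =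
              (fun x => a1 (sweep k (nearPart m (lowSub k T' true)) x)) then (1 : ℝ) else 0)) =
          (avg fun T' : Coins k =>
            if (fun x => a0 (sweep k (nearPart m (lowSub k T false)) x)) =
              (fun x => a0 (sweep k (nearPart m T') x)) then (1 : ℝ) else 0) *
          (avg fun T' : Coins k =>
            if (fun x => a1 (sweep k (nearPart m (lowSub k T true)) x)) =
              (fun x => a1 (sweep k (nearPart m T') x)) then (1 : ℝ) else 0) := fun T =>
        avg_low (fun T' : Coins k =>
            if (fun x => a0 (sweep k (nearPart m (lowSub k T false)) x)) =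
              (fun x => a0 (sweep k (nearPart m T') x)) then (1 : ℝ) else 0)
          (fun T' : Coins k =>
            if (fun x => a1 (sweep k (nearPart m (lowSub k T true)) x)) =
              (fun x => a1 (sweep k (nearPart m T') x)) then (1 : ℝ) else 0)
      simp_rw [h2]
      exact avg_low (fun R : Coins k => avg fun T' : Coins k =>
            if (fun x => a0 (sweep k (nearPart m R) x)) =
              (fun x => a0 (sweep k (nearPart m T') x)) then (1 : ℝ) else 0)
        (fun R : Coins k => avg fun T' : Coins k =>
            if (fun x => a1 (sweep k (nearPart m R) x)) =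
              (fun x => a1 (sweep k (nearPart m T') x)) then (1 : ℝ) else 0)
    · rw [if_neg (fun h => h1 (hsupp.1 h).2), if_neg h1, mul_zero]
  · rw [if_neg (fun h => h0 (hsupp.1 h).1), if_neg h0, zero_mul]

theorem yminus_nonneg (U : Type) [Fintype U] [DecidableEq U] (k m : ℕ) (S : Finset (Pos k)) :
    0 ≤ yminus U k m S := by
  unfold yminus
  refine Finset.sum_nonneg fun a _ => ?_
  split
  · refine avg_nonneg fun T => avg_nonneg fun T' => ?_
    split <;> norm_num
  · exact le_rfl

/-- The near trace for the top `k - m` layers, any number of colours. -/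
theorem yminus_trunc (hC : Interface.VCrude) (U : Type) [Fintype U] [DecidableEq U] (m : ℕ) :
    ∀ (j : ℕ) (S : Finset (Pos (j + m))),
      yminus U (j + m) m S ≤ Real.exp ((S.card : ℝ) * (Fintype.card U : ℝ) * (3 / 4 : ℝ) ^ j) := by
  induction m with
  | zero =>
      intro j S
      have h := yminus_zero U (j + 0) S
      rw [h]
      have h2 := hC U (j + 0) (S.image (rev (j + 0)))
      rw [card_image_rev] at h2
      exact h2
  | succ m ih =>
      intro j S
      have h := yminus_succ U (j + m) m S
      have h' : yminus U (j + (m + 1)) (m + 1) S =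
          yminus U (j + m) m (lowFibre S false) * yminus U (j + m) m (lowFibre S true) := h
      rw [h']
      have h0 := ih j (lowFibre S false)
      have h1 := ih j (lowFibre S true)
      have hc := card_lowFibre S
      calc yminus U (j + m) m (lowFibre S false) * yminus U (j + m) m (lowFibre S true)
          ≤ Real.exp (((lowFibre S false).card : ℝ) * (Fintype.card U : ℝ) * (3 / 4 : ℝ) ^ j) *
            Real.exp (((lowFibre S true).card : ℝ) * (Fintype.card U : ℝ) * (3 / 4 : ℝ) ^ j) :=
            mul_le_mul h0 h1 (yminus_nonneg _ _ _ _) (Real.exp_pos _).le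
        _ = Real.exp ((S.card : ℝ) * (Fintype.card U : ℝ) * (3 / 4 : ℝ) ^ j) := by
            rw [← Real.exp_add]
            congr 1
            have : (S.card : ℝ) = ((lowFibre S false).card : ℝ) + ((lowFibre S true).card : ℝ) := by
              exact_mod_cast hc.symm
            rw [this]
            ring

end Crest.Agent.Thorp
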