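import Crest.Agent.Lib.Thorp.Defs
import Crest.Agent.Lib.Thorp.YoungCore

/-!
# Thorp shuffle (S0222), Section 5 of the paper proof: the bridge to tuples.

* `xLaw_nonneg`, `xLaw_inv`: the law of `g = τ'⁻¹ τ` is nonnegative and symmetric.
* `tupleMat_nonneg`, `tupleMat_symm`: hence so is its matrix on injective tuples.
* `trace_pow_le_of_moment`: the Schur-Young trace bound in the `[n]^j` normalisation,
  `Tr (K^q) ≤ ((n)_j / n^j) * B^(q-1)`.
* `colorOf`: the colouring of an injective tuple, and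
  `tupleMat_xLaw_eq_coll : tupleMat (xLaw k) j y y' = coll k (colorOf y) (colorOf y')`.
* `trace_tupleMat_xLaw_le`: the same trace bound from a moment bound for `coll`.
-/

set_option autoImplicit false
set_option linter.unusedSectionVars false

namespace Crest.Agent.Thorp.YoungTuple

open Finset BigOperators Matrix

section Law

lemma avg_nonneg' {α : Type*} [Fintype α] {f : α → ℝ} (hf : ∀ a, 0 ≤ f a) : 0 ≤ avg f :=
  div_nonneg (Finset.sum_nonneg fun a _ => hf a) (Nat.cast_nonneg _)

lemma gOf_inv {k : ℕ} (T T' : Coins k) : (gOf T T')⁻¹ = gOf T' T := by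
  simp [gOf, _root_.mul_inv_rev]

theorem xLaw_nonneg (k : ℕ) (g : Equiv.Perm (Pos k)) : 0 ≤ xLaw k g := by
  unfold xLaw
  refine avg_nonneg' fun T => avg_nonneg' fun T' => ?_
  split_ifs <;> norm_num

theorem xLaw_inv (k : ℕ) (g : Equiv.Perm (Pos k)) : xLaw k g⁻¹ = xLaw k g := by
  unfold xLaw avg
  have h : ∀ T T' : Coins k, (gOf T T' = g⁻¹) ↔ (gOf T' T = g) := by
    intro T T'
    rw [← gOf_inv T' T, _root_.inv_inj]
  simp only [h]
  rw [← Finset.sum_div, ← Finset.sum_div]
  congr 1
  simp only [Finset.sum_div]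
  exact Finset.sum_comm

end Law

section Tuple

variable {P : Type*} [Fintype P] [DecidableEq P]

theorem tupleMat_nonneg {μ : Equiv.Perm P → ℝ} (hμ : ∀ g, 0 ≤ μ g) (j : ℕ) (y y' : Fin j ↪ P) :
    0 ≤ tupleMat μ j y y' := by
  unfold tupleMat
  refine Finset.sum_nonneg fun g _ => ?_
  split_ifs
  · exact hμ g
  · exact le_rfl

lemma trans_eq_iff (j : ℕ) (y y' : Fin j ↪ P) (g : Equiv.Perm P) :
    y.trans g.toEmbedding = y' ↔ y'.trans (g⁻¹).toEmbedding = y := by
  constructor
  · rintro rfl
    ext i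
    simp
  · rintro rfl
    ext i
    simp

theorem tupleMat_symm {μ : Equiv.Perm P → ℝ} (hμ : ∀ g, μ g⁻¹ = μ g) (j : ℕ) (y y' : Fin j ↪ P) :
    tupleMat μ j y y' = tupleMat μ j y' y := by
  unfold tupleMat
  refine Fintype.sum_equiv (Equiv.inv _) _ _ fun g => ?_
  simp only [Equiv.inv_apply]
  by_cases h : y.trans g.toEmbedding = y'
  · rw [if_pos h, if_pos ((trans_eq_iff j y y' g).1 h), hμ]
  · rw [if_neg h, if_neg (fun h' => h ((trans_eq_iff j y y' g).2 h'))]

/-- The Schur-Young trace bound on injective tuples in the `[n]^j` normalisation. -/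
theorem trace_pow_le_of_moment {μ : Equiv.Perm P → ℝ} (hμ : ∀ g, 0 ≤ μ g)
    (hs : ∀ g, μ g⁻¹ = μ g) (j q : ℕ) (hq : 2 ≤ q) (B : ℝ)
    (hB : ∀ y : Fin j ↪ P,
      (∑ y' : Fin j ↪ P, (((Fintype.card P : ℝ) ^ j) * tupleMat μ j y y') ^ ((q : ℝ) / ((q : ℝ) - 1)))
        / ((Fintype.card P : ℝ) ^ j) ≤ B) :
    ((tupleMat μ j) ^ q).trace ≤
      ((Fintype.card (Fin j ↪ P) : ℝ) / (Fintype.card P : ℝ) ^ j) * B ^ (q - 1) := by
  classical
  rcases isEmpty_or_nonempty (Fin j ↪ P) with hemp | hne
  · have h1 : ((tupleMat μ j) ^ q).trace = 0 := by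
      simp [Matrix.trace]
    have h2 : (Fintype.card (Fin j ↪ P) : ℝ) = 0 := by
      simp
    rw [h1, h2]
    simp
  obtain ⟨y0⟩ := hne
  have : Nonempty (Fin j ↪ P) := ⟨y0⟩
  set M : ℝ := (Fintype.card (Fin j ↪ P) : ℝ) with hM
  have hMpos : 0 < M := by
    rw [hM]
    exact_mod_cast Fintype.card_pos
  set Nj : ℝ := (Fintype.card P : ℝ) ^ j with hNj
  have hNjpos : 0 < Nj := by
    rw [hNj]
    rcases Nat.eq_zero_or_pos j with hj | hj
    · subst hj
      simp
    · have : Nonempty P := ⟨y0 ⟨0, hj⟩⟩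
      exact pow_pos (by exact_mod_cast Fintype.card_pos) j
  set t : ℝ := M / Nj with ht
  have htpos : 0 < t := div_pos hMpos hNjpos
  have hq2 : (2 : ℝ) ≤ q := by exact_mod_cast hq
  have hq1 : (0 : ℝ) < (q : ℝ) - 1 := by linarith
  set p : ℝ := (q : ℝ) / ((q : ℝ) - 1) with hp
  set d : ℝ := 1 / ((q : ℝ) - 1) with hd
  have hpd : p = 1 + d := by
    rw [hp, hd]
    field_simp
    ring
  have hBnn : 0 ≤ B := by
    refine le_trans ?_ (hB y0)
    refine div_nonneg (Finset.sum_nonneg fun y' _ => ?_) hNjpos.le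
    exact Real.rpow_nonneg (mul_nonneg hNjpos.le (tupleMat_nonneg hμ j y0 y')) _
  have hC : ∀ y : Fin j ↪ P,
      (∑ y', ((Fintype.card (Fin j ↪ P) : ℝ) * tupleMat μ j y y') ^ ((q : ℝ) / ((q : ℝ) - 1)))
        / (Fintype.card (Fin j ↪ P) : ℝ) ≤ t ^ d * B := by
    intro y
    have hterm : ∀ y' : Fin j ↪ P,
        (M * tupleMat μ j y y') ^ p = t ^ p * (Nj * tupleMat μ j y y') ^ p := by
      intro y'
      rw [← Real.mul_rpow htpos.le (mul_nonneg hNjpos.le (tupleMat_nonneg hμ j y y'))]
      congr 1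
      rw [ht]
      field_simp
    calc (∑ y', (M * tupleMat μ j y y') ^ p) / M
        = t ^ d * ((∑ y', (Nj * tupleMat μ j y y') ^ p) / Nj) := by
          simp only [hterm]
          rw [← Finset.mul_sum, hpd, Real.rpow_add htpos, Real.rpow_one]
          rw [ht]
          field_simp
      _ ≤ t ^ d * B := mul_le_mul_of_nonneg_left (hB y) (Real.rpow_nonneg htpos.le _)
  have key := Crest.Agent.Thorp.YoungCore.young_trace_le
    (K := tupleMat μ j) (tupleMat_nonneg hμ j) (tupleMat_symm hs j) hq hC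
  refine le_trans key (le_of_eq ?_)
  rw [mul_pow]
  congr 1
  rw [← Real.rpow_natCast (t ^ d), ← Real.rpow_mul htpos.le]
  have : d * ((q - 1 : ℕ) : ℝ) = 1 := by
    rw [hd, Nat.cast_sub (by omega)]
    push_cast
    field_simp
  rw [this, Real.rpow_one]

end Tuple

section Colour

variable {U : Type} [Fintype U] [DecidableEq U] {k : ℕ}

/-- The colouring of an injective tuple: the site `y u` has colour `u`, the others colour `none`. -/
noncomputable def colorOf (y : U ↪ Pos k) : Color U k :=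
  fun x => if h : ∃ u, y u = x then some (Classical.choose h) else none

lemma colorOf_eq_some_iff (y : U ↪ Pos k) (x : Pos k) (u : U) :
    colorOf y x = some u ↔ y u = x := by
  unfold colorOf
  constructor
  · intro h
    by_cases hx : ∃ u, y u = x
    · rw [dif_pos hx] at h
      have := Classical.choose_spec hx
      rw [Option.some.injEq] at h
      rw [← h]
      exact this
    · rw [dif_neg hx] at h
      exact absurd h (by simp)
  · intro h
    have hx : ∃ u, y u = x := ⟨u, h⟩
    rw [dif_pos hx]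
    congr 1
    apply y.injective
    rw [Classical.choose_spec hx, h]

lemma colorOf_self (y : U ↪ Pos k) (u : U) : colorOf y (y u) = some u :=
  (colorOf_eq_some_iff y _ u).2 rfl

lemma colorOf_injective : Function.Injective (colorOf : (U ↪ Pos k) → Color U k) := by
  intro y y' h
  ext u
  have h1 : colorOf y' (y u) = some u := by
    rw [← h]
    exact colorOf_self y u
  exact ((colorOf_eq_some_iff y' _ u).1 h1).symm

/-- Moving the tuple moves the colouring. -/
lemma colorOf_trans (y : U ↪ Pos k) (g : Equiv.Perm (Pos k)) :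
    colorOf (y.trans g.toEmbedding) = fun x => colorOf y (g⁻¹ x) := by
  funext x
  cases hc : colorOf y (g⁻¹ x) with
  | none =>
    by_contra hne
    obtain ⟨u, hu⟩ := Option.ne_none_iff_exists'.1 hne
    have h1 := (colorOf_eq_some_iff _ _ _).1 hu
    have h2 : colorOf y (g⁻¹ x) = some u := by
      refine (colorOf_eq_some_iff y _ u).2 ?_
      rw [← h1]
      simp
    rw [hc] at h2
    exact absurd h2 (by simp)
  | some u =>
    have h1 := (colorOf_eq_some_iff y _ u).1 hc
    refine (colorOf_eq_some_iff _ _ _).2 ?_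
    simp [h1]

lemma csupp_colorOf (y : U ↪ Pos k) : (csupp (colorOf y)).card = Fintype.card U := by
  have : csupp (colorOf y) = Finset.univ.map y := by
    ext x
    simp only [csupp, Finset.mem_filter, Finset.mem_univ, true_and, Finset.mem_map]
    constructor
    · intro h
      obtain ⟨u, hu⟩ := Option.isSome_iff_exists.1 h
      exact ⟨u, (colorOf_eq_some_iff y x u).1 hu⟩
    · rintro ⟨u, rfl⟩
      rw [colorOf_self]
      rfl
  rw [this, Finset.card_map, Finset.card_univ]

lemma colorOf_distinct (y : U ↪ Pos k) : Distinct (colorOf y) := by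
  intro x x' u h h'
  rw [← (colorOf_eq_some_iff y x u).1 h, ← (colorOf_eq_some_iff y x' u).1 h']

end Colour

section Bridge

variable {k : ℕ}

/-- The matrix of `X_k` on tuples is the matrix `coll` on their colourings. -/
theorem tupleMat_xLaw_eq_coll (j : ℕ) (y y' : Fin j ↪ Pos k) :
    tupleMat (xLaw k) j y y' = coll k (colorOf y) (colorOf y') := by
  classical
  unfold tupleMat coll xLaw avg
  have hiff : ∀ g : Equiv.Perm (Pos k), (fun x => colorOf y (g⁻¹ x)) = colorOf y' ↔
      y.trans g.toEmbedding = y' := by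
    intro g
    rw [← colorOf_trans]
    exact colorOf_injective.eq_iff
  have hinner : ∀ T T' : Coins k,
      (∑ g : Equiv.Perm (Pos k), if y.trans g.toEmbedding = y' then
        (if gOf T T' = g then (1 : ℝ) else 0) else 0) =
      if (fun x => colorOf y ((gOf T T')⁻¹ x)) = colorOf y' then (1 : ℝ) else 0 := by
    intro T T'
    rw [Finset.sum_eq_single (gOf T T')]
    · simp only [if_true]
      by_cases h : y.trans (gOf T T').toEmbedding = y'
      · rw [if_pos h, if_pos ((hiff _).2 h)]
      · rw [if_neg h, if_neg (fun h' => h ((hiff _).1 h'))]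
    · intro g _ hg
      split_ifs with h1 h2
      · exact absurd h2.symm hg
      · rfl
      · rfl
    · intro h
      exact absurd (Finset.mem_univ _) h
  simp only [← hinner]
  simp only [Finset.sum_div]
  -- now exchange the sums
  have e : ∀ g : Equiv.Perm (Pos k),
      (if y.trans g.toEmbedding = y' then
        (∑ T : Coins k, ∑ T' : Coins k,
          (if gOf T T' = g then (1 : ℝ) else 0) / (Fintype.card (Coins k) : ℝ) /
            (Fintype.card (Coins k) : ℝ)) else 0) =
      ∑ T : Coins k, ∑ T' : Coins k,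
        (if y.trans g.toEmbedding = y' then (if gOf T T' = g then (1 : ℝ) else 0) else 0) /
          (Fintype.card (Coins k) : ℝ) / (Fintype.card (Coins k) : ℝ) := by
    intro g
    split_ifs with h
    · rfl
    · simp
  simp only [e]
  rw [Finset.sum_comm]
  refine Finset.sum_congr rfl fun T _ => ?_
  rw [Finset.sum_comm]

/-- The trace bound on tuples from the moment bound for `coll` (the conclusion of the tree
inequality, with `1 + d = q/(q-1)`). -/
theorem trace_tupleMat_xLaw_le (j q : ℕ) (hq : 2 ≤ q) (B : ℝ)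
    (hB : ∀ y : Fin j ↪ Pos k,
      (∑ c' : Color (Fin j) k, (((2 ^ k : ℕ) : ℝ) ^ j * coll k (colorOf y) c') ^ ((q : ℝ) / ((q : ℝ) - 1)))
        / ((2 ^ k : ℕ) : ℝ) ^ j ≤ B) :
    ((tupleMat (xLaw k) j) ^ q).trace ≤
      ((Fintype.card (Fin j ↪ Pos k) : ℝ) / ((2 ^ k : ℕ) : ℝ) ^ j) * B ^ (q - 1) := by
  classical
  have hcard : (Fintype.card (Pos k) : ℝ) = ((2 ^ k : ℕ) : ℝ) := by rw [card_Pos]
  rw [← hcard]
  refine trace_pow_le_of_moment (xLaw_nonneg k) (xLaw_inv k) j q hq B fun y => ?_
  refine le_trans ?_ (by simpa only [hcard] using hB y)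
  rw [hcard]
  have hpos : (0 : ℝ) ≤ ((2 ^ k : ℕ) : ℝ) ^ j := by positivity
  refine div_le_div_of_nonneg_right ?_ hpos
  have hle :
      (∑ y' : Fin j ↪ Pos k,
        (((2 ^ k : ℕ) : ℝ) ^ j * coll k (colorOf y) (colorOf y')) ^ ((q : ℝ) / ((q : ℝ) - 1))) ≤
      ∑ c' : Color (Fin j) k,
        (((2 ^ k : ℕ) : ℝ) ^ j * coll k (colorOf y) c') ^ ((q : ℝ) / ((q : ℝ) - 1)) := by
    have hinj := (colorOf_injective (U := Fin j) (k := k))
    rw [← Finset.sum_image (s := Finset.univ) (g := colorOf (U := Fin j) (k := k))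
      (f := fun c' => (((2 ^ k : ℕ) : ℝ) ^ j * coll k (colorOf y) c') ^ ((q : ℝ) / ((q : ℝ) - 1)))
      (fun a _ b _ h => hinj h)]
    refine Finset.sum_le_sum_of_subset_of_nonneg (Finset.subset_univ _) fun c' _ _ => ?_
    refine Real.rpow_nonneg (mul_nonneg hpos ?_) _
    unfold coll
    refine avg_nonneg' fun T => avg_nonneg' fun T' => ?_
    split_ifs <;> norm_num
  refine le_trans (le_of_eq ?_) hle
  refine Finset.sum_congr rfl fun y' _ => ?_
  rw [tupleMat_xLaw_eq_coll]

end Bridge

end Crest.Agent.Thorp.YoungTuple
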